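import Vale.Agent.P354I.Iface
import Vale.Agent.P354JK.Main

/-!
The Kerr data on a slice of constant r between the horizons are smooth, and h is positive.
-/

open scoped ContDiff
open Set Filter Topology Matrix

noncomputable section

namespace Vale.Agent.P354IK

open Vale.Agent.P354I
open Vale.Agent.P354JK (inner3 kh_sum)

variable {M a r : ℝ} {y : X}

theorem rm_pos (ha : a ≠ 0) (h : |a| < M) : 0 < rm M a := by
  have hM : 0 < M := (abs_nonneg a).trans_lt h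
  exact sub_pos.2 ((Real.sqrt_lt' hM).2 (by linarith [sq_pos_of_ne_zero ha]))

theorem del_neg (h : |a| < M) (h1 : rm M a < r) (h2 : r < rp M a) :
    r ^ 2 - 2 * M * r + a ^ 2 < 0 := by
  have h3 : 0 ≤ M ^ 2 - a ^ 2 := by
    rw [← sq_abs a]
    exact sub_nonneg.2 (pow_le_pow_left₀ (abs_nonneg a) h.le 2)
  have h4 := mul_pos (sub_pos.2 h1) (sub_pos.2 h2)
  have h5 := Real.sq_sqrt h3
  unfold rm rp at h4
  nlinarith

theorem Sg_pos (hr : 0 < r) (a : ℝ) (y : X) : 0 < Sg a r y := by unfold Sg; positivity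

theorem nsq (y : X) : ‖y‖ ^ 2 = y 0 ^ 2 + y 1 ^ 2 + y 2 ^ 2 := by
  rw [← real_inner_self_eq_norm_sq, inner3]
  ring

theorem bl_symm (M a r : ℝ) (y v w : X) : bl M a r y v w = bl M a r y w v := by
  simp only [bl, rnd, real_inner_comm v w]
  ring

theorem rnd_symm (y v w : X) : rnd y v w = rnd y w v := by
  simp only [rnd, real_inner_comm v w]
  ring

theorem kh_symm (M a r : ℝ) (y : X) (i j : Fin 3) : kh M a r y i j = kh M a r y j i :=
  bl_symm ..

/-- The form dP is controlled by the round metric. -/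
theorem dP_le (hy : y ≠ 0) (u : X) :
    0 ≤ rnd y u u ∧ dP y u ^ 2 ≤ (1 - y 2 ^ 2 / ‖y‖ ^ 2) * rnd y u u := by
  have hN : 0 < ‖y‖ ^ 2 := sq_pos_of_pos (norm_pos_iff.2 hy)
  have e1 : rnd y u u = ((y 1 * u 2 - y 2 * u 1) ^ 2 + (y 2 * u 0 - y 0 * u 2) ^ 2
      + (y 0 * u 1 - y 1 * u 0) ^ 2) / (‖y‖ ^ 2) ^ 2 := by
    rw [rnd, dT, inner3, inner3]
    field_simp
    rw [nsq]
    ring
  have e2 : (1 - y 2 ^ 2 / ‖y‖ ^ 2) * rnd y u u - dP y u ^ 2
      = (y 0 * (y 2 * u 0 - y 0 * u 2) - y 1 * (y 1 * u 2 - y 2 * u 1)) ^ 2 / (‖y‖ ^ 2) ^ 3 := by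
    rw [e1, dP]
    generalize hn : ‖y‖ ^ 2 = N at hN ⊢
    field_simp
    rw [← hn, nsq]
    ring
  exact ⟨by rw [e1]; positivity, sub_nonneg.1 (by rw [e2]; positivity)⟩

theorem bl_pos (hr : 0 < r) (hD : r ^ 2 - 2 * M * r + a ^ 2 < 0) (hy : y ≠ 0) {u : X}
    (hu : u ≠ 0) : 0 < bl M a r y u u := by
  have hN : 0 < ‖y‖ ^ 2 := sq_pos_of_pos (norm_pos_iff.2 hy)
  have hS := Sg_pos hr a y
  obtain ⟨h1, h2⟩ := dP_le hy u
  have h3 : 0 < rnd y u u + dT y u * dT y u := by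
    rw [rnd, sub_add_cancel, real_inner_self_eq_norm_sq]
    exact div_pos (sq_pos_of_pos (norm_pos_iff.2 hu)) hN
  have h4 : y 2 ^ 2 / ‖y‖ ^ 2 ≤ 1 := by
    rw [div_le_one hN, nsq]
    nlinarith [sq_nonneg (y 0), sq_nonneg (y 1)]
  have e : Sg a r y * bl M a r y u u = (-(r ^ 2 - 2 * M * r + a ^ 2)
      + a ^ 2 * (1 - y 2 ^ 2 / ‖y‖ ^ 2)) * (dT y u - a * dP y u) ^ 2
      - 2 * a * Sg a r y * (dT y u - a * dP y u) * dP y u + Sg a r y ^ 2 * rnd y u u := by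
    rw [bl]
    field_simp
    rw [Sg]
    field_simp
    ring
  refine pos_of_mul_pos_left (b := Sg a r y) ?_ hS.le
  rw [mul_comm, e]
  generalize Sg a r y = S at hS
  generalize y 2 ^ 2 / ‖y‖ ^ 2 = c at h2 h4
  generalize dT y u = T at h3
  generalize dP y u = P at h2
  generalize rnd y u u = ρ at h1 h2 h3
  generalize r ^ 2 - 2 * M * r + a ^ 2 = D at hD
  have h5 : 0 ≤ a ^ 2 * (1 - c) := mul_nonneg (sq_nonneg a) (by linarith)
  rcases h1.eq_or_lt with rfl | h1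
  · obtain rfl : P = 0 := pow_eq_zero_iff two_ne_zero |>.1 (le_antisymm (by simpa using h2)
      (sq_nonneg P))
    have := mul_pos (by linarith : 0 < -D + a ^ 2 * (1 - c)) h3
    nlinarith
  refine pos_of_mul_pos_left (b := ρ) ?_ h1.le
  have h6 := mul_le_mul_of_nonneg_left h2 (sq_nonneg (a * (T - a * P)))
  rcases eq_or_ne (T - a * P) 0 with h7 | h7
  · rw [h7]
    have := mul_pos (mul_pos (sq_pos_of_pos hS) h1) h1
    nlinarith
  · have := mul_pos (mul_pos (neg_pos.2 hD) (sq_pos_of_ne_zero h7)) h1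
    nlinarith [sq_nonneg (a * P * (T - a * P) - S * ρ)]

theorem tw_ne (om : ℝ) {v : X} (hv : v ≠ 0) : tw om y v ≠ 0 := fun h => hv (by
  have h1 : dT y (tw om y v) = dT y v := by
    simp only [dT, tw, inner3, PiLp.add_apply, PiLp.smul_apply, smul_eq_mul, cons_val_zero,
      cons_val_one, cons_val_two, Fin.isValue, Nat.succ_eq_add_one, Nat.reduceAdd, tail_cons,
      head_cons]
    ring
  rw [h, show dT y 0 = 0 by simp [dT]] at h1
  rwa [tw, ← h1, mul_zero, zero_smul, add_zero] at h)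

/-- The derivative of the metric of the slices in r. -/
def bl' (M a r : ℝ) (y v w : X) : ℝ :=
  2 * M * (Sg a r y - 2 * r ^ 2) / Sg a r y ^ 2 * ((dT y v - a * dP y v) * (dT y w - a * dP y w)) +
    2 * r * rnd y v w

theorem hasDerivAt_bl (hr : 0 < r) (y v w : X) :
    HasDerivAt (fun s => bl M a s y v w) (bl' M a r y v w) r := by
  have hS := (Sg_pos hr a y).ne'
  have h1 : HasDerivAt (fun s => Sg a s y) (2 * r) r := by
    simpa [Sg] using (hasDerivAt_pow 2 r).add_const (a ^ 2 * (y 2 ^ 2 / ‖y‖ ^ 2))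
  refine (((((((hasDerivAt_id' r).const_mul (2 * M)).fun_div h1 hS).mul_const _).const_add _).fun_add
    (h1.mul_const _)).add_const _).congr_deriv ?_
  rw [bl']
  ring

section smooth

variable {v w : X → X}

theorem cd_co (hv : ContDiffAt ℝ ∞ v y) (i : Fin 3) : ContDiffAt ℝ ∞ (fun z => v z i) y :=
  (EuclideanSpace.proj i : X →L[ℝ] ℝ).contDiff.contDiffAt.comp y hv

theorem cd_div (hy : y ≠ 0) {f : X → ℝ} (hf : ContDiffAt ℝ ∞ f y) :
    ContDiffAt ℝ ∞ (fun z => f z / ‖z‖ ^ 2) y :=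
  hf.div (contDiff_norm_sq ℝ).contDiffAt (pow_ne_zero 2 (norm_ne_zero_iff.2 hy))

theorem cd_dT (hy : y ≠ 0) (hv : ContDiffAt ℝ ∞ v y) : ContDiffAt ℝ ∞ (fun z => dT z (v z)) y :=
  cd_div hy (contDiffAt_id.inner ℝ hv)

theorem cd_dP (hy : y ≠ 0) (hv : ContDiffAt ℝ ∞ v y) : ContDiffAt ℝ ∞ (fun z => dP z (v z)) y :=
  cd_div hy (((cd_co contDiffAt_id 0).mul (cd_co hv 1)).sub
    ((cd_co contDiffAt_id 1).mul (cd_co hv 0)))

theorem cd_rnd (hy : y ≠ 0) (hv : ContDiffAt ℝ ∞ v y) (hw : ContDiffAt ℝ ∞ w y) :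
    ContDiffAt ℝ ∞ (fun z => rnd z (v z) (w z)) y :=
  (cd_div hy (hv.inner ℝ hw)).sub ((cd_dT hy hv).mul (cd_dT hy hw))

theorem cd_Sg (hy : y ≠ 0) (a r : ℝ) : ContDiffAt ℝ ∞ (Sg a r) y :=
  contDiffAt_const.add (contDiffAt_const.mul (cd_div hy ((cd_co contDiffAt_id 2).pow 2)))

theorem cd_tw (hy : y ≠ 0) (om : ℝ) (u : X) : ContDiffAt ℝ ∞ (fun z => tw om z u) y := by
  refine contDiffAt_const.add ((contDiffAt_const.mul (cd_dT hy contDiffAt_const)).smul ?_)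
  refine contDiffAt_euclidean.2 fun i => ?_
  fin_cases i
  · exact (cd_co contDiffAt_id 1).neg
  · exact cd_co contDiffAt_id 0
  · exact contDiffAt_const

theorem cd_X (hy : y ≠ 0) (hv : ContDiffAt ℝ ∞ v y) (hw : ContDiffAt ℝ ∞ w y) : ContDiffAt ℝ ∞
    (fun z => (dT z (v z) - a * dP z (v z)) * (dT z (w z) - a * dP z (w z))) y :=
  ((cd_dT hy hv).sub (contDiffAt_const.mul (cd_dP hy hv))).mul
    ((cd_dT hy hw).sub (contDiffAt_const.mul (cd_dP hy hw)))

theorem cd_bl (hr : 0 < r) (hy : y ≠ 0) (hv : ContDiffAt ℝ ∞ v y) (hw : ContDiffAt ℝ ∞ w y) :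
    ContDiffAt ℝ ∞ (fun z => bl M a r z (v z) (w z)) y :=
  ((((cd_dT hy hv).mul (cd_dT hy hw)).neg.add ((contDiffAt_const.div (cd_Sg hy a r)
    (Sg_pos hr a y).ne').mul (cd_X hy hv hw))).add ((cd_Sg hy a r).mul (cd_rnd hy hv hw))).add
    (contDiffAt_const.mul ((cd_dP hy hv).mul (cd_dP hy hw)))

theorem cd_bl' (hr : 0 < r) (hy : y ≠ 0) (hv : ContDiffAt ℝ ∞ v y) (hw : ContDiffAt ℝ ∞ w y) :
    ContDiffAt ℝ ∞ (fun z => bl' M a r z (v z) (w z)) y :=
  (((contDiffAt_const.mul ((cd_Sg hy a r).sub contDiffAt_const)).div ((cd_Sg hy a r).pow 2)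
    (pow_ne_zero 2 (Sg_pos hr a y).ne')).mul (cd_X hy hv hw)).add
    (contDiffAt_const.mul (cd_rnd hy hv hw))

end smooth

/-- The second fundamental form of the Kerr slice, explicitly. -/
theorem kerr_K (hr : 0 < r) (y : X) (i j : Fin 3) : (kerr M a r).K y i j =
    -√(-(r ^ 2 - 2 * M * r + a ^ 2) / Sg a r y) / 2 * bl' M a r y
      (tw (a / (rm M a ^ 2 + a ^ 2)) y (ee i)) (tw (a / (rm M a ^ 2 + a ^ 2)) y (ee j)) := by
  rw [← (hasDerivAt_bl hr y _ _).deriv]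
  rfl

/-- **KPD.** -/
theorem kpd : KPD := by
  intro M a r ha hM h1 h2
  have hr := (rm_pos ha hM).trans h1
  have hD := del_neg hM h1 h2
  refine ⟨fun i j => ⟨fun y hy => (cd_bl hr hy (cd_tw hy _ _) (cd_tw hy _ _)).contDiffWithinAt,
    fun y hy => ContDiffAt.contDiffWithinAt ?_⟩, fun y hy => ⟨?_, ?_⟩⟩
  · simp only [kerr_K hr]
    exact (((contDiffAt_const.div (cd_Sg hy a r) (Sg_pos hr a y).ne').sqrt
      (div_pos (neg_pos.2 hD) (Sg_pos hr a y)).ne').neg.div_const 2).mul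
      (cd_bl' hr hy (cd_tw hy _ _) (cd_tw hy _ _))
  · refine PosDef.of_dotProduct_mulVec_pos ?_ fun v hv => ?_
    · ext i j
      exact kh_symm M a r y j i
    · have h3 := bl_pos (M := M) (a := a) hr hD hy (tw_ne (y := y) (P354R.omm M a)
        (v := WithLp.toLp 2 v) (by simpa using hv))
      rw [← kh_sum] at h3
      refine h3.trans_eq ?_
      simp only [dotProduct, mulVec, star_trivial, kerr, of_apply, Fin.sum_univ_three]
      ring
  · ext i j
    simp only [transpose_apply, kerr, of_apply, kh_symm M a _ y j i]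

end Vale.Agent.P354IK
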